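import Vale.Agent.P161E.SRec
import Vale.Agent.P161E.SCpf
import Vale.Agent.P161E.SSym

/-!
# S2, S3 and S4
-/
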